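import Vale.Agent.P011Z.Open
import Vale.Agent.P011Z.Cong

/-!
The exponential map of the real group.
-/

open Matrix Topology Filter

namespace Vale.Agent.P011Z

namespace SAR

variable {n : Type} [Fintype n] [DecidableEq n]

/-- The exponential of an array. -/
noncomputable def exP (Y : n → n → ℝ) : n → n → ℝ :=
  Matrix.of.symm (NormedSpace.exp (Matrix.of Y))

theorem of_exP (Y : n → n → ℝ) : Matrix.of (exP Y) = NormedSpace.exp (Matrix.of Y) := rfl

open scoped Matrix.Norms.Operator in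
theorem strict_exP :
    HasStrictFDerivAt (exP : (n → n → ℝ) → n → n → ℝ) (ContinuousLinearMap.id ℝ _) 0 :=
  hasStrictFDerivAt_exp_zero (𝕂 := ℝ) (𝔸 := Matrix n n ℝ)

open scoped Matrix.Norms.Operator in
theorem cont_exp : Continuous (NormedSpace.exp : Matrix n n ℝ → Matrix n n ℝ) :=
  NormedSpace.exp_continuous

open scoped Matrix.Norms.Operator in
theorem deriv_exp (X : Matrix n n ℝ) (t : ℝ) :
    HasDerivAt (fun u : ℝ => (Matrix.of.symm (NormedSpace.exp (u • X)) : n → n → ℝ))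
      (Matrix.of.symm (X * NormedSpace.exp (t • X))) t :=
  hasDerivAt_exp_smul_const' (𝕂 := ℝ) (𝔸 := Matrix n n ℝ) X t

variable {S : Sys n}

theorem exp_mem {X : Matrix n n ℝ} (hX : X ∈ S.lie ℝ) : NormedSpace.exp X ∈ S.mon ℝ := by
  intro τ hτ x
  have h1 : ∀ t : ℝ, HasDerivAt
      (fun u : ℝ => Opn.evC ℝ τ.2 fun r => NormedSpace.exp (u • X) *ᵥ x r) 0 t := by
    intro t
    have h2 : HasDerivAt (fun (u : ℝ) r => NormedSpace.exp (u • X) *ᵥ x r)
        (fun r => X *ᵥ (NormedSpace.exp (t • X) *ᵥ x r)) t := by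
      refine hasDerivAt_pi.2 fun r => hasDerivAt_pi.2 fun i => ?_
      rw [mulVec_mulVec]
      simp only [mulVec, dotProduct]
      refine HasDerivAt.fun_sum fun j _ => HasDerivAt.mul_const ?_ _
      exact hasDerivAt_pi.1 (hasDerivAt_pi.1 (deriv_exp X t) i) j
    have h3 := ((Opn.evC ℝ τ.2).hasFDerivAt _).comp_hasDerivAt t h2
    rw [ContinuousMultilinearMap.linearDeriv_apply] at h3
    have h4 := hX τ hτ fun r => NormedSpace.exp (t • X) *ᵥ x r
    exact h3.congr_deriv h4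
  have h5 := is_const_of_deriv_eq_zero (fun t => (h1 t).differentiableAt)
    (fun t => (h1 t).deriv) 1 0
  simpa [Opn.evC_apply] using h5

/-- The exponential map into the group. -/
noncomputable def exG (X : S.lie ℝ) : S.mon ℝ := ⟨NormedSpace.exp X.1, exp_mem X.2⟩

theorem coe_exG (X : S.lie ℝ) : (exG X : Matrix n n ℝ) = NormedSpace.exp X.1 := rfl

theorem cont_exG : Continuous (exG : S.lie ℝ → S.mon ℝ) :=
  (cont_exp.comp continuous_subtype_val).subtype_mk _

/-- One parameter groups. -/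
noncomputable def opg (X : S.lie ℝ) : Multiplicative ℝ →* S.mon ℝ where
  toFun t := exG (t.toAdd • X)
  map_one' := Subtype.ext (by simp [coe_exG])
  map_mul' s t := Subtype.ext (by
    rw [Submonoid.coe_mul, coe_exG, coe_exG, coe_exG, toAdd_mul, add_smul, Submodule.coe_add,
      Matrix.exp_add_of_commute]
    exact ((Commute.refl X.1).smul_left _).smul_right _)

theorem exG_zsmul (X : S.lie ℝ) (m : ℤ) : exG ((m : ℝ) • X) = exG X ^ m := by
  have h := map_zpow (opg X) (Multiplicative.ofAdd 1) m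
  simpa [opg] using h

theorem exG_conj (g : S.mon ℝ) (X : S.lie ℝ) :
    exG ⟨_, Sys.conj_mem g X.2⟩ = g * exG X * g⁻¹ := by
  refine Subtype.ext ?_
  rw [Submonoid.coe_mul, Submonoid.coe_mul, coe_exG, coe_exG]
  exact Matrix.exp_conj _ _ ((isUnit_iff_isUnit_det _).2 (Sys.isUnit_det g.2))

/-- Limits of directions. -/
theorem lim_mem {T : Finset Nat.Primes} {ι : Type} {l : Filter ι} [l.NeBot]
    {H : Subgroup (S.GT T)} (hH : IsClosed (H : Set (S.GT T))) {Y : ι → S.lie ℝ}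
    {k : ι → (q : T) → S.mon ℚ_[(q.1 : ℕ)]} (hmem : ∀ i, (exG (Y i), k i) ∈ H)
    {a : ι → ℝ} (ha : ∀ i, 0 < a i) (ha0 : Tendsto a l (𝓝 0)) (hk : Tendsto k l (𝓝 1))
    {Y0 : S.lie ℝ} (hlim : Tendsto (fun i => (a i)⁻¹ • Y i) l (𝓝 Y0)) (t : ℝ) :
    ((exG (t • Y0), 1) : S.GT T) ∈ H := by
  have h1 : Tendsto (fun i => (⌊t / a i⌋ : ℝ) * a i) l (𝓝 t) := by
    refine tendsto_of_tendsto_of_tendsto_of_le_of_le (g := fun i => t - a i) (h := fun _ => t)
      (by simpa using ha0.const_sub t) tendsto_const_nhds (fun i => ?_) fun i => ?_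
    · have h2 := (div_lt_iff₀ (ha i)).1 (Int.lt_floor_add_one (t / a i))
      simp only
      linarith
    · exact (le_div_iff₀ (ha i)).1 (Int.floor_le (t / a i))
  have h2 : Tendsto (fun i => (⌊t / a i⌋ : ℝ) • Y i) l (𝓝 (t • Y0)) := by
    refine (h1.smul hlim).congr fun i => ?_
    rw [smul_smul, mul_inv_cancel_right₀ (ha i).ne']
  have h3 : Tendsto (fun i => k i ^ ⌊t / a i⌋) l (𝓝 1) := by
    refine tendsto_pi_nhds.2 fun q => tendsto_def.2 fun U hU => ?_
    obtain ⟨K, hK, hKU⟩ := S.exists_small q.1 hU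
    filter_upwards [(tendsto_pi_nhds.1 hk q).eventually (hK.mem_nhds K.one_mem)] with i hi
    exact hKU (K.zpow_mem hi _)
  refine hH.mem_of_tendsto (((cont_exG.tendsto _).comp h2).prodMk_nhds h3)
    (Eventually.of_forall fun i => ?_)
  have h4 := H.zpow_mem (hmem i) ⌊t / a i⌋
  rwa [Prod.pow_mk, ← exG_zsmul] at h4

/-- Powers of conjugates stay in the closure. -/
theorem exists_pow_conj {Γ G : Type} [Group Γ] [Group G] [TopologicalSpace G]
    [IsTopologicalGroup G] (f : Γ →* G) {Δ : Subgroup Γ} {x : Γ}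
    (hc : (Δ.comap (MulAut.conj x).toMonoidHom).relIndex Δ ≠ 0) :
    ∃ N : ℕ, 0 < N ∧ ∀ y ∈ (Δ.map f).topologicalClosure,
      f x * y ^ N * (f x)⁻¹ ∈ (Δ.map f).topologicalClosure := by
  refine ⟨_, Nat.factorial_pos ((Δ.comap (MulAut.conj x).toMonoidHom).relIndex Δ),
    fun y hy => ?_⟩
  refine map_mem_closure (f := fun y : G => f x * y ^ _ * (f x)⁻¹) (by fun_prop) hy ?_
  rintro _ ⟨γ, hγ, rfl⟩
  have h1 := (Subgroup.pow_mem_of_relIndex_ne_zero_of_dvd hc hγ
    fun m h1 h2 => Nat.dvd_factorial h1 h2).1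
  refine ⟨_, h1, ?_⟩
  simp

end SAR

end Vale.Agent.P011Z
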